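import Vale.Agent.P344.Galois
import Mathlib.Analysis.SpecialFunctions.Log.Base

open Vale.Agent.P344 Finset in
/-- Let a linear circuit with `s` gates compute `F_n` exactly. If all gates outside a set `K` of
`k ≤ n` gates have cost at most `b` (so every scalar gate outside `K` has `‖σ c‖ ≤ b`), where
`b ≥ 2`, then `(n - k) * log₂ n - n ≤ 2 * s * log₂ b`. So a circuit with `o(n log n)` gates must
have `n - o(n)` gates of large coefficient, for every ring homomorphism `σ : ℂ →+* ℂ`. -/
theorem Vale.Agent.Results.P344.FewLargeCoefficients.result {n : ℕ} (hn : 0 < n)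
    (gates : List LinGate) (hC : ComputesDFT n gates)
    (K : Finset ℕ) (hk : K.card ≤ n) (σ : ℂ →+* ℂ) (b : ℝ) (hb : 2 ≤ b)
    (hbound : ∀ g : Fin gates.length, (g : ℕ) ∉ K → gateCost σ gates[g] ≤ b) :
    ((n - K.card : ℕ) : ℝ) * Real.logb 2 n - n ≤ 2 * gates.length * Real.logb 2 b := by
  have hmain := main_sigma hn gates hC K hk σ
  have hb1 : (1 : ℝ) ≤ b := by linarith
  have hP : (∏ g : Fin gates.length, if (g : ℕ) ∈ K then 1 else gateCost σ gates[g])
      ≤ b ^ gates.length := by
    calc _ ≤ ∏ _g : Fin gates.length, b := by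
          refine Finset.prod_le_prod (fun g _ => ?_) (fun g _ => ?_)
          · split_ifs
            · norm_num
            · linarith [one_le_gateCost σ gates[g]]
          · split_ifs with h
            · exact hb1
            · exact hbound g h
      _ = b ^ gates.length := by simp
  have hPnn : 0 ≤ ∏ g : Fin gates.length, if (g : ℕ) ∈ K then 1 else gateCost σ gates[g] :=
    Finset.prod_nonneg (fun g _ => by
      split_ifs
      · norm_num
      · linarith [one_le_gateCost σ gates[g]])
  have hchoose : (n.choose K.card : ℝ) ≤ 2 ^ n := by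
    exact_mod_cast Nat.choose_le_two_pow n K.card
  have hall : (n : ℝ) ^ (n - K.card) ≤ 2 ^ n * (b ^ gates.length) ^ 2 := by
    calc _ ≤ _ := hmain
      _ ≤ 2 ^ n * (b ^ gates.length) ^ 2 :=
        mul_le_mul hchoose (pow_le_pow_left₀ hPnn hP 2) (by positivity) (by positivity)
  have hnpos : (0 : ℝ) < n := by exact_mod_cast hn
  have hbpos : (0 : ℝ) < b := by linarith
  have hlog := Real.logb_le_logb_of_le (b := 2) (by norm_num) (by positivity) hall
  rw [Real.logb_pow, Real.logb_mul (by positivity) (by positivity), Real.logb_pow,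
    Real.logb_pow, Real.logb_pow, Real.logb_self_eq_one (by norm_num)] at hlog
  push_cast at hlog ⊢
  nlinarith
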