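import Vale.Agent.P344.Galois

open Vale.Agent.P344 in
/-- Let a linear circuit compute `F_n` exactly, with output wires `out`. Let `K` be any set of at
most `n` gates and let `t` be any nonnegative wire weight with `t ≥ 1` on inputs which, at gates
outside `K`, dominates the maximal path gain (`GainBound`). If `t (out j) ≤ G` for all outputs,
then `n ^ (n - |K|) ≤ C(n, |K|) * 4 ^ (number of gates) * G ^ (2 (n - |K|))`. -/
theorem Vale.Agent.Results.P344.GainBound.result {n : ℕ} (hn : 0 < n)
    (gates : List LinGate) (out : Fin n → ℕ) (hout : IsDFTOutputs n gates out)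
    (K : Finset ℕ) (hk : K.card ≤ n) (σ : ℂ →+* ℂ)
    (t : ℕ → ℝ) (ht : ∀ i, 0 ≤ t i) (hin : ∀ i < n, 1 ≤ t i)
    (hgain : ∀ i, ∀ hi : i < gates.length, i ∉ K → GainBound n σ t i gates[i])
    (G : ℝ) (hG : ∀ j, t (out j) ≤ G) :
    (n : ℝ) ^ (n - K.card)
      ≤ (n.choose K.card : ℝ) * 4 ^ gates.length * G ^ (2 * (n - K.card)) :=
  main_gain hn gates out hout K hk σ t ht hin hgain G hG
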