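import Vale.Agent.P344.Galois

open Vale.Agent.P344 in
/-- Let a linear circuit compute `F_n` exactly. Remove any set `K` of at most `n` gates (they may
have arbitrary coefficients) and apply any ring homomorphism `σ : ℂ →+* ℂ` to the coefficients.
Then `n ^ (n - |K|) ≤ C(n, |K|) * (∏ g ∉ K, cost g) ^ 2`, where the cost is `2` for an addition
or subtraction and `max 1 ‖σ c‖` for a scalar gate with coefficient `c`. -/
theorem Vale.Agent.Results.P344.HybridDeterminant.result {n : ℕ} (hn : 0 < n)
    (gates : List LinGate) (hC : ComputesDFT n gates)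
    (K : Finset ℕ) (hk : K.card ≤ n) (σ : ℂ →+* ℂ) :
    (n : ℝ) ^ (n - K.card) ≤ (n.choose K.card : ℝ) * (∏ g : Fin gates.length,
        if (g : ℕ) ∈ K then 1 else gateCost σ gates[g]) ^ 2 :=
  main_sigma hn gates hC K hk σ
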